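import Vale.Agent.P015.R3.H7.E.Grid
import Vale.Agent.P015.R3.H7.E.Grow
import Vale.Agent.P015.R3.H7.GrowC

namespace Vale.Agent.Results.P015.GrowingSteps

open Vale.Agent.P015 Vale.Agent.P015.H807 Vale.Agent.P015.R3.H7 Filter Polynomial

/-- Moats everywhere, two-dimensional moats, and growing steps.
(1) For every `e > 2` there is `C` such that for all `D ≥ 1`, `k ≥ 2`, `R ≥ exp (C D ^ e k log k)`
and every centre `z₀`: (a) every component of `G_D` has at most `R ^ 2 exp (-k)` elements in the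
disc of radius `R` about `z₀`; (b) removing at most `R exp (-k)` Gaussian primes cuts this disc off
in `G_D` from the outside of the disc of radius `2 R`; (c) at most `R exp (-k)` walks of `G_D` with
pairwise disjoint supports lead from the small disc to the outside of the large one.
(2) For every `e > 2` there is `C` such that for `D ≥ 1` and `n ≥ exp (C D ^ e)` every injective map
of the `n × n` grid into the Gaussian primes moves some two neighbours of the grid to
distance `> D`.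
(3)-(7) concern the graph `H_c = growGraph c` of Gaussian primes with steps
`|z - w| ≤ (log (|z| + |w| + 16)) ^ c`. For all `b, c > 0` with `2 c + b < 1`:
(3) all but `R ^ 2 exp (-(log R) ^ b)` of the Gaussian primes of the disc of radius `R` about `0`
have their component of `H_c` within `log R` (`R` large);
(4) after deleting a set of Gaussian primes with at most `R exp (-(log R) ^ b)` elements up to `R`
all components of `H_c` are finite.
For every `0 < b < 1` there is `c > 0` such that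
(5) all components of `H_c` restricted to a set `S` are finite if near each far out `z` in `S`, in
the disc of radius `|z| ^ a` about `z`, the set `S` is within `exp ((log (|z| + 16)) ^ b)` of at most
`exp ((log (|z| + 16)) ^ b)` boundaries of convex sets;
(6) so it is for the Gaussian primes within `exp ((log (|z| + 16)) ^ b)` of a finite union of
boundaries of convex sets, and (7) of any polynomial curve `P(t) + i Q(t)`. -/
theorem result :
    (∀ e : ℝ, 2 < e → ∃ C : ℝ, 0 < C ∧ ∀ D : ℝ, 1 ≤ D → ∀ k : ℕ, 2 ≤ k → ∀ R : ℝ,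
      Real.exp (C * D ^ e * (k * Real.log k)) ≤ R → ∀ z₀ : ℂ,
      (∀ X : Finset {z : GaussianInt // Prime z},
        (∀ x ∈ X, ∀ y ∈ X, (moatGraph D).Reachable x y) →
        (∀ x ∈ X, dist (GaussianInt.toComplex x.1) z₀ ≤ R) →
        (X.card : ℝ) ≤ R ^ 2 * Real.exp (-(k : ℝ))) ∧
      (∃ F : Finset {z : GaussianInt // Prime z},
        (∀ z ∈ F, R ≤ dist (GaussianInt.toComplex z.1) z₀ ∧
          dist (GaussianInt.toComplex z.1) z₀ ≤ 2 * R) ∧
        (F.card : ℝ) ≤ R * Real.exp (-(k : ℝ)) ∧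
        ∀ (z w : {z : GaussianInt // Prime z}) (p : (moatGraph D).Walk z w),
          dist (GaussianInt.toComplex z.1) z₀ < R → 2 * R < dist (GaussianInt.toComplex w.1) z₀ →
          ∃ v ∈ p.support, v ∈ F) ∧
      (∀ (n : ℕ) (z w : Fin n → {z : GaussianInt // Prime z})
        (p : ∀ i, (moatGraph D).Walk (z i) (w i)),
        (∀ i, dist (GaussianInt.toComplex (z i).1) z₀ < R) →
        (∀ i, 2 * R < dist (GaussianInt.toComplex (w i).1) z₀) →
        (∀ i j, ∀ v ∈ (p i).support, v ∈ (p j).support → i = j) →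
        (n : ℝ) ≤ R * Real.exp (-(k : ℝ)))) ∧
    (∀ e : ℝ, 2 < e → ∃ C : ℝ, 0 < C ∧ ∀ D : ℝ, 1 ≤ D → ∀ n : ℕ, Real.exp (C * D ^ e) ≤ n →
      ∀ φ : ℕ → ℕ → {z : GaussianInt // Prime z},
        (∀ i < n, ∀ j < n, ∀ i' < n, ∀ j' < n, φ i j = φ i' j' → i = i' ∧ j = j') →
        ∃ i < n, ∃ j < n,
          (i + 1 < n ∧
            D < dist (GaussianInt.toComplex (φ i j).1) (GaussianInt.toComplex (φ (i + 1) j).1)) ∨
          (j + 1 < n ∧
            D < dist (GaussianInt.toComplex (φ i j).1)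
              (GaussianInt.toComplex (φ i (j + 1)).1))) ∧
    (∀ b c : ℝ, 0 < b → 0 < c → 2 * c + b < 1 → ∀ᶠ R : ℝ in atTop,
      ∀ X : Finset {z : GaussianInt // Prime z},
      (∀ z ∈ X, ‖GaussianInt.toComplex z.1‖ ≤ R ∧ ∃ w, (growGraph c).Reachable z w ∧
        Real.log R < dist (GaussianInt.toComplex z.1) (GaussianInt.toComplex w.1)) →
      (X.card : ℝ) ≤ R ^ 2 * Real.exp (-((Real.log R) ^ b))) ∧
    (∀ b c : ℝ, 0 < b → 0 < c → 2 * c + b < 1 → ∃ F : Set {z : GaussianInt // Prime z},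
      (∀ K : ((growGraph c).induce Fᶜ).ConnectedComponent, K.supp.Finite) ∧
      ∀ᶠ R : ℝ in atTop, ∀ X : Finset {z : GaussianInt // Prime z},
        (∀ z ∈ X, z ∈ F ∧ ‖GaussianInt.toComplex z.1‖ ≤ R) →
        (X.card : ℝ) ≤ R * Real.exp (-((Real.log R) ^ b))) ∧
    (∀ b : ℝ, 0 < b → b < 1 → ∃ c : ℝ, 0 < c ∧ ∀ a : ℝ, 0 < a →
      ∀ (S : Set {z : GaussianInt // Prime z}) (R₀ : ℝ),
      (∀ z ∈ S, R₀ ≤ ‖GaussianInt.toComplex z.1‖ → ∃ (M : ℕ) (K : Fin M → Set ℂ),
        (M : ℝ) ≤ wide b ‖GaussianInt.toComplex z.1‖ ∧ (∀ j, Convex ℝ (K j)) ∧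
        ∀ v ∈ S, dist (GaussianInt.toComplex z.1) (GaussianInt.toComplex v.1) ≤
            ‖GaussianInt.toComplex z.1‖ ^ a →
          NearBoundaries K (wide b ‖GaussianInt.toComplex z.1‖) (GaussianInt.toComplex v.1)) →
      ∀ N : ((growGraph c).induce S).ConnectedComponent, N.supp.Finite) ∧
    (∀ b : ℝ, 0 < b → b < 1 → ∃ c : ℝ, 0 < c ∧
      ∀ (M : ℕ) (K : Fin M → Set ℂ), (∀ j, Convex ℝ (K j)) →
      ∀ N : ((growGraph c).induce {z | NearBoundaries K (wide b ‖GaussianInt.toComplex z.1‖)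
        (GaussianInt.toComplex z.1)}).ConnectedComponent, N.supp.Finite) ∧
    (∀ b : ℝ, 0 < b → b < 1 → ∃ c : ℝ, 0 < c ∧
      ∀ (P Q : ℝ[X]) (N : ((growGraph c).induce {z | ∃ t : ℝ,
        dist (GaussianInt.toComplex z.1) (⟨P.eval t, Q.eval t⟩ : ℂ) ≤
          wide b ‖GaussianInt.toComplex z.1‖}).ConnectedComponent), N.supp.Finite) := by
  refine ⟨?_, fun e he => grid_moat_exp he, grow_few_exp, grow_blocking_exp, grow_thin, grow_union,
    grow_poly⟩
  intro e he
  obtain ⟨C₁, hC₁, h₁⟩ := comp_count_exp he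
  obtain ⟨C₂, hC₂, h₂⟩ := local_moat_exp he
  refine ⟨max C₁ C₂, lt_of_lt_of_le (by linarith) (le_max_left _ _), ?_⟩
  intro D hD k hk R hR z₀
  obtain ⟨F, hF1, hF2, hF3⟩ := h₂ _ (le_max_right C₁ C₂) D hD k hk R hR z₀
  refine ⟨fun X hX hXR => h₁ _ (le_max_left C₁ C₂) D hD k hk R hR z₀ X hX hXR,
    ⟨F, hF1, hF2, hF3⟩, ?_⟩
  intro n z w p hz hw hdis
  exact disjoint_walks hF2 hF3 n z w p hz hw hdis

end Vale.Agent.Results.P015.GrowingSteps
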