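import Vale.Agent.P015.R3.H85.Main
import Vale.Agent.P015.R3.H85.Quarter

namespace Vale.Agent.Results.P015.OneCluster

open Vale.Agent.P015 Vale.Agent.P015.R3.H85

/-- The large clusters of the sieved sets and the infinite components of `G_D`, for every step
bound `D`.
(1) For `m ≠ 0`, any two `D`-clusters of the set of Gaussian integers prime to `m` with more than
`φ(m)` elements coincide (and `φ(m) ≤ N(m)`).
(2) Such a cluster is infinite, invariant under multiplication by `i` and under translation by all
multiples of `m`, and meets at least `|m| / D` residue classes modulo `m`.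
(3) Equivalent are: for some `m ≠ 0` all clusters have at most `φ(m)` elements; for some `k` all
walks through `k + 1` distinct Gaussian integers with steps at most `D` meet all residue classes
modulo some Gaussian prime; there is no infinite sequence of distinct Gaussian integers with steps
at most `D` that misses a residue class modulo every Gaussian prime; there is no such sequence in
which terms that are not consecutive have distance larger than `D`.
(4) In this case the components of `G_D` have bounded size.
(5) For every `m ≠ 0`, any two infinite paths of `G_D`, and the rotations of their tails by `i`,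
end in the one large cluster of the set of Gaussian integers prime to `m`.
(6) An infinite component of `G_D` that lies in no quarter-plane is invariant under multiplication
by `i` and under conjugation, and there is at most one such component. -/
theorem result :
    (∀ (D : ℝ) (m : GaussianInt), m ≠ 0 → phi m ≤ m.norm.natAbs ∧
      ∀ z w : GaussianInt, ((phi m : ℕ) : ℕ∞) < (cluster D m z).encard →
        ((phi m : ℕ) : ℕ∞) < (cluster D m w).encard → cluster D m w = cluster D m z) ∧
    (∀ (D : ℝ) (m : GaussianInt), m ≠ 0 → ∀ z : GaussianInt,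
      ((phi m : ℕ) : ℕ∞) < (cluster D m z).encard →
        (cluster D m z).Infinite ∧
        (∀ x ∈ cluster D m z, (⟨0, 1⟩ : GaussianInt) * x ∈ cluster D m z ∧
          ∀ u : GaussianInt, x + m * u ∈ cluster D m z) ∧
        ∃ T : Finset GaussianInt, (T : Set GaussianInt) ⊆ cluster D m z ∧
          (∀ x ∈ T, ∀ y ∈ T, m ∣ x - y → x = y) ∧
          ‖GaussianInt.toComplex m‖ ≤ D * T.card) ∧
    (∀ D : ℝ, List.TFAE [
      ∃ m : GaussianInt, m ≠ 0 ∧ ∀ z, (cluster D m z).encard ≤ ((phi m : ℕ) : ℕ∞),
      ∃ k : ℕ, ∀ f : ℕ → GaussianInt, (∀ i ≤ k, ∀ j ≤ k, f i = f j → i = j) →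
        (∀ n < k, dist (GaussianInt.toComplex (f n)) (GaussianInt.toComplex (f (n + 1))) ≤ D) →
          ∃ π : GaussianInt, Prime π ∧ ∀ a, ∃ n ≤ k, π ∣ f n - a,
      ¬ ∃ g : ℕ → GaussianInt, Admissible D g,
      ¬ ∃ g : ℕ → GaussianInt, Admissible D g ∧ ∀ i j, i + 1 < j →
        D < dist (GaussianInt.toComplex (g i)) (GaussianInt.toComplex (g j))]) ∧
    (∀ (D : ℝ) (m : GaussianInt), m ≠ 0 →
      (∀ z, (cluster D m z).encard ≤ ((phi m : ℕ) : ℕ∞)) →
        ∃ B : ℕ, ∀ z : {z : GaussianInt // Prime z},
          {w | (moatGraph D).Reachable z w}.encard ≤ (B : ℕ∞)) ∧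
    (∀ (D : ℝ) (γ γ' : ℕ → {z : GaussianInt // Prime z}), IsInfinitePath D γ →
      IsInfinitePath D γ' → ∀ m : GaussianInt, m ≠ 0 →
        ∃ n₀, ∀ k, n₀ ≤ k → ∀ l, n₀ ≤ l →
          ((phi m : ℕ) : ℕ∞) < (cluster D m (γ k).1).encard ∧
          (γ' l).1 ∈ cluster D m (γ k).1 ∧
          (⟨0, 1⟩ : GaussianInt) * (γ' l).1 ∈ cluster D m (γ k).1) ∧
    ∀ (D : ℝ) (z : {z : GaussianInt // Prime z}),
      {x | (moatGraph D).Reachable z x}.Infinite →
      ¬ InQuarter (Subtype.val '' {x | (moatGraph D).Reachable z x}) →
        (∀ x y : {z : GaussianInt // Prime z}, (moatGraph D).Reachable z x →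
          (y.1 = ⟨0, 1⟩ * x.1 ∨ y.1 = star x.1) → (moatGraph D).Reachable z y) ∧
        ∀ w : {z : GaussianInt // Prime z}, {x | (moatGraph D).Reachable w x}.Infinite →
          ¬ InQuarter (Subtype.val '' {x | (moatGraph D).Reachable w x}) →
            (moatGraph D).Reachable z w :=
  ⟨fun _ _ hm => ⟨phi_le_norm hm, fun _ _ hz hw => one_cluster hm hz hw⟩,
    fun _ _ hm _ hz => structure_of_big hm hz, dichotomy,
    fun _ _ hm h => bounded_components hm h, fun _ _ _ h h' _ hm => paths_join h h' hm,
    fun _ _ hz hq => infinite_components hz hq⟩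

end Vale.Agent.Results.P015.OneCluster
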