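import Vale.Agent.P015.R2.H376.Glue
import Vale.Agent.P015.R2.H376.Grow

namespace Vale.Agent.Results.P015.RandomWalks

open Finset Filter Vale.Agent.P015 Vale.Agent.P015.Walks

/-- Random walks and harmonic functions on the Gaussian moat graphs `G_D`. There is `C > 0` such
that for all `D ≥ 1`, `k ≥ 2`, `R ≥ exp (C D ^ C k log k)` and every centre `z₀`:
(1) the capacity between the discs of radius `R / 4` and `R / 2` is at most `3600 D ^ 4 exp (-k)`;
(2) for all conductances in `[0, 1]` on the edges of `G_D` and every finite set `A` of Gaussian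
primes within `R / 4` of `z₀`, the sum over `x ∈ A` of the total conductance at `x` times the
probability that the walk from `x` leaves the disc of radius `R` within `n + 1` steps, before its
first return to `A`, is at most `1800 D ^ 4 exp (-k)`;
(3) a harmonic function in the disc of radius `R`, bounded by `M`, has Dirichlet energy at most
`14400 D ^ 4 M ^ 2 exp (-k)` in the disc of radius `R / 4`.
For every `D ≥ 1` there is `c > 0` such that
(4) the bounds in (1) and (2) hold with `exp (-c log R / log log R)` for all large `R`;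
(5) a harmonic function on all Gaussian primes which on the discs `|z| ≤ R` is bounded by
`exp (c log R / log log R)` for arbitrarily large `R` is constant along all edges of positive
conductance.
(6) For every `β < 1` there is `c > 0` such that for all conductances in `[0, 1]` on the pairs of
Gaussian primes at distance at most `(log (|x| + |y| + 16)) ^ c` the bound in (2) holds with
`exp (-(log R) ^ β)` for all large `R` and all `|z₀| ≤ R`, and (5) with `exp ((log R) ^ β)`. -/
theorem result :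
    ((∃ C : ℝ, 0 < C ∧ ∀ D : ℝ, 1 ≤ D → ∀ k : ℕ, 2 ≤ k → ∀ R : ℝ,
      Real.exp (C * D ^ C * (k * Real.log k)) ≤ R → ∀ z₀ : ℂ,
      (∃ g, IsCutoff D R (3600 * D ^ 4 * Real.exp (-k)) z₀ g) ∧
      ∀ κ, IsConductance D κ →
        (∀ A : Finset {z : GaussianInt // Prime z},
          (∀ x ∈ A, dist (GaussianInt.toComplex x) z₀ ≤ R / 4) → ∀ n : ℕ,
          ∑ x ∈ A, ∑ᶠ y, κ x y * escapeProb κ A z₀ R n y ≤ 1800 * D ^ 4 * Real.exp (-k)) ∧
        ∀ (h : {z : GaussianInt // Prime z} → ℝ) (M : ℝ),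
          (∀ x : {z : GaussianInt // Prime z}, dist (GaussianInt.toComplex x) z₀ < R →
            ∑ᶠ y, κ x y * (h x - h y) = 0) →
          (∀ x : {z : GaussianInt // Prime z}, dist (GaussianInt.toComplex x) z₀ ≤ R →
            |h x| ≤ M) →
          ∀ T : Finset {z : GaussianInt // Prime z},
            (∀ x ∈ T, dist (GaussianInt.toComplex x) z₀ ≤ R / 4) →
            ∑ x ∈ T, ∑ y ∈ T, κ x y * (h x - h y) ^ 2 ≤
              14400 * D ^ 4 * M ^ 2 * Real.exp (-k)) ∧
    ∀ D : ℝ, 1 ≤ D → ∃ c : ℝ, 0 < c ∧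
      (∀ᶠ R : ℝ in atTop, ∀ z₀ : ℂ,
        (∃ g, IsCutoff D R (Real.exp (-(c * (Real.log R / Real.log (Real.log R))))) z₀ g) ∧
        ∀ κ, IsConductance D κ → ∀ A : Finset {z : GaussianInt // Prime z},
          (∀ x ∈ A, dist (GaussianInt.toComplex x) z₀ ≤ R / 4) → ∀ n : ℕ,
          ∑ x ∈ A, ∑ᶠ y, κ x y * escapeProb κ A z₀ R n y ≤
            Real.exp (-(c * (Real.log R / Real.log (Real.log R))))) ∧
      ∀ κ, IsConductance D κ → ∀ h : {z : GaussianInt // Prime z} → ℝ,
        (∀ x, ∑ᶠ y, κ x y * (h x - h y) = 0) →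
        (∃ᶠ R : ℝ in atTop, ∀ x : {z : GaussianInt // Prime z}, ‖GaussianInt.toComplex x‖ ≤ R →
          |h x| ≤ Real.exp (c * (Real.log R / Real.log (Real.log R)))) →
        ∀ x y, κ x y ≠ 0 → h x = h y) ∧
    ∀ β : ℝ, β < 1 → ∃ c : ℝ, 0 < c ∧
    (∀ᶠ R : ℝ in atTop, ∀ z₀ : ℂ, ‖z₀‖ ≤ R → ∀ κ, IsGrowingConductance c κ →
      ∀ A : Finset {z : GaussianInt // Prime z},
      (∀ x ∈ A, dist (GaussianInt.toComplex x) z₀ ≤ R / 4) → ∀ n : ℕ,
      ∑ x ∈ A, ∑ᶠ y, κ x y * escapeProb κ A z₀ R n y ≤ Real.exp (-(Real.log R ^ β))) ∧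
    ∀ κ, IsGrowingConductance c κ → ∀ h : {z : GaussianInt // Prime z} → ℝ,
      (∀ x, ∑ᶠ y, κ x y * (h x - h y) = 0) →
      (∃ᶠ R : ℝ in atTop, ∀ x : {z : GaussianInt // Prime z}, ‖GaussianInt.toComplex x‖ ≤ R →
        |h x| ≤ Real.exp (Real.log R ^ β)) →
      ∀ x y, κ x y ≠ 0 → h x = h y :=
  ⟨Vale.Agent.P015.R2.H376.main', fun _ hβ => Vale.Agent.P015.R2.H376.growing hβ⟩

end Vale.Agent.Results.P015.RandomWalks
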