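import Vale.Agent.P015.R2.H731.P2
import Vale.Agent.P015.R2.H116.Coup3
import Vale.Agent.P015.R2.H731.MainOf
import Vale.Agent.P015.R4.H929.AllPaths2

namespace Vale.Agent.Results.P015.StretchedExponentialWalks

open Vale.Agent.P015
open scoped Pointwise

/-- The step sequences of infinite paths of `G_D` have stretched exponential factor complexity at
all large lengths, long walks do not recur up to translation, and all long paths of `G_D` have
small additive energy: with an absolute constant `c > 0`, for every `D` and every large `k`,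
(1) every infinite path of `G_D` makes, after every time, at least `exp (k ^ c)` different words of
`k` consecutive steps;
(2) so does every sequence of `N + 1` distinct Gaussian integers, `N ≥ 2 k exp (k ^ c)`, with steps
at most `D` that misses a residue class modulo every Gaussian prime of norm at most `k`;
(3) if `f 0, ..., f k` are distinct with steps at most `D` and `X` is a set of translations of
diameter at most `exp (k ^ c)` such that the union of all `z + f n`, `z ∈ X`, misses a residue class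
modulo every Gaussian prime of norm at most `k` (for example, if all `z + f n` are Gaussian primes
of norm greater than `k`), then `X` has fewer than `k` elements;
and with another absolute constant `c > 0`,
(4a) every set `W` of `n ≥ n₀` Gaussian integers that lies in a disc of radius `n (log n) ^ c` and
misses a residue class modulo every Gaussian prime of norm at most `exp (√(log n))` has at most
`n ^ 3 / (log n) ^ c` additive quadruples `a + b = a' + b'`, so that all `A ⊆ W` satisfy
`|A| ^ 4 (log n) ^ c ≤ n ^ 3 |A + A|` and `|A| ^ 4 (log n) ^ c ≤ n ^ 3 |A - A|`;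
(4b) for every `D` and `n ≥ n₀ D` the same holds for the set of the vertices of every path of `G_D`
with `n` vertices, wherever it lies. -/
theorem result :
    (∃ c : ℝ, 0 < c ∧
      (∀ D : ℝ, ∃ k₀ : ℕ, ∀ k : ℕ, k₀ ≤ k →
        ∀ γ : ℕ → {z : GaussianInt // Prime z}, IsInfinitePath D γ → ∀ n₀ : ℕ,
          Real.exp ((k : ℝ) ^ c) ≤ (complexity (fun n => (γ n).1) n₀ k : ℝ)) ∧
      (∀ D : ℝ, ∃ k₀ : ℕ, ∀ k : ℕ, k₀ ≤ k → ∀ N : ℕ,
        2 * k * Real.exp ((k : ℝ) ^ c) ≤ N →
        ∀ g : ℕ → GaussianInt,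
          (∀ m ≤ N, ∀ n ≤ N, g m = g n → m = n) →
          (∀ n < N, dist (GaussianInt.toComplex (g n)) (GaussianInt.toComplex (g (n + 1))) ≤ D) →
          (∀ π : GaussianInt, Prime π → π.norm ≤ k →
            ∃ a : GaussianInt, ∀ n ≤ N, ¬ π ∣ g n - a) →
          Real.exp ((k : ℝ) ^ c) ≤ ((stepWord g k '' {n | n + k ≤ N}).ncard : ℝ)) ∧
      ∀ D : ℝ, ∃ k₀ : ℕ, ∀ k : ℕ, k₀ ≤ k → ∀ f : ℕ → GaussianInt,
        (∀ m ≤ k, ∀ n ≤ k, f m = f n → m = n) →
        (∀ n < k, dist (GaussianInt.toComplex (f n)) (GaussianInt.toComplex (f (n + 1))) ≤ D) →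
        ∀ X : Finset GaussianInt,
          (∀ z ∈ X, ∀ w ∈ X, dist (GaussianInt.toComplex z) (GaussianInt.toComplex w) ≤
            Real.exp ((k : ℝ) ^ c)) →
          (∀ π : GaussianInt, Prime π → π.norm ≤ k →
            ∃ a : GaussianInt, ∀ z ∈ X, ∀ n ≤ k, ¬ π ∣ z + f n - a) →
          X.card < k) ∧
    ∃ c : ℝ, 0 < c ∧
      (∃ n₀ : ℕ, ∀ W : Finset GaussianInt, n₀ ≤ W.card → ∀ z : GaussianInt,
        (∀ w ∈ W, dist (GaussianInt.toComplex w) (GaussianInt.toComplex z) ≤
          W.card * Real.log W.card ^ c) →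
        (∀ π : GaussianInt, Prime π → (π.norm : ℝ) ≤ Real.exp (Real.sqrt (Real.log W.card)) →
          ∃ a : GaussianInt, ∀ w ∈ W, ¬ π ∣ w - a) →
        (Finset.addEnergy W W : ℝ) * Real.log W.card ^ c ≤ (W.card : ℝ) ^ 3 ∧
        ∀ A ⊆ W,
          (A.card : ℝ) ^ 4 * Real.log W.card ^ c ≤ (W.card : ℝ) ^ 3 * ((A + A).card : ℝ) ∧
          (A.card : ℝ) ^ 4 * Real.log W.card ^ c ≤ (W.card : ℝ) ^ 3 * ((A - A).card : ℝ)) ∧
      ∀ D : ℝ, ∃ n₀ : ℕ, ∀ n : ℕ, n₀ ≤ n → ∀ g : ℕ → {z : GaussianInt // Prime z},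
        (∀ i < n, ∀ j < n, g i = g j → i = j) →
        (∀ j, j + 1 < n → (moatGraph D).Adj (g j) (g (j + 1))) →
        (Finset.addEnergy ((Finset.range n).image fun j => (g j).1)
            ((Finset.range n).image fun j => (g j).1) : ℝ) * Real.log n ^ c ≤ (n : ℝ) ^ 3 ∧
        ∀ A ⊆ (Finset.range n).image fun j => (g j).1,
          (A.card : ℝ) ^ 4 * Real.log n ^ c ≤ (n : ℝ) ^ 3 * ((A + A).card : ℝ) ∧
          (A.card : ℝ) ^ 4 * Real.log n ^ c ≤ (n : ℝ) ^ 3 * ((A - A).card : ℝ) :=
  ⟨R2.H731.main_of (R2.H731.harmPoly_of R2.H116.coupling R2.H731.p2), R4.H929.main2⟩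

end Vale.Agent.Results.P015.StretchedExponentialWalks
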